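import Vale.Agent.Lib.P160.Pairs

namespace Vale.Agent.Lib.P160

open Finset

/-- The event attached to an ordered pair of indices: for `p.1 < p.2` row `p.2` equals row `p.1`,
and for `p.2 < p.1` row `p.2` equals minus row `p.1`. -/
def G (n : ℕ) (p : Fin n × Fin n) : Finset (Matrix (Fin n) (Fin n) Bool) :=
  ev n p.1 p.2 (decide (p.1 < p.2))

theorem G_subset (n : ℕ) (p : Fin n × Fin n) : G n p ⊆ symSign n := by
  intro B hB
  exact (mem_filter.mp hB).1

theorem pair_inter {n : ℕ} {p p' : Fin n × Fin n} (hp : p.1 ≠ p.2) (hp' : p'.1 ≠ p'.2)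
    (hne : p ≠ p') : (G n p ∩ G n p').card * 4 ^ n ≤ 2 * (symSign n).card := by
  obtain ⟨i, j⟩ := p
  obtain ⟨i', j'⟩ := p'
  simp only at hp hp'
  by_cases hjj : j = j'
  · have hii : i ≠ i' := by
      intro h
      apply hne
      rw [h, hjj]
    apply inter_card_le j i' (fun h => hp' (h.trans hjj))
    · intro B hB
      exact G_subset n _ (mem_inter.mp hB).1
    · intro B hB B' hB' hout
      rw [mem_inter] at hB hB'
      simp only [G, mem_ev] at hB hB'
      rw [← hjj] at hB hB'
      exact recB hB.1.1 hB'.1.1 hB.1.2 hB'.1.2 hB.2.2 hB'.2.2 hp hii hout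
  · by_cases hij' : i = j'
    · by_cases hi'j : i' = j
      · have hempty : G n (i, j) ∩ G n (i', j') = ∅ := by
          apply eq_empty_of_forall_notMem
          intro B hB
          rw [mem_inter] at hB
          simp only [G, mem_ev] at hB
          have h1 := hB.1.2 i
          have h2 := hB.2.2 i
          rw [← hij', hi'j] at h2
          rw [h2] at h1
          rcases lt_or_gt_of_ne hp with hlt | hgt
          · have e1 : decide (i < j) = true := decide_eq_true hlt
            have e2 : decide (j < i) = false := decide_eq_false (not_lt.mpr hlt.le)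
            rw [e1, e2] at h1
            revert h1
            cases B j i <;> simp
          · have e1 : decide (i < j) = false := decide_eq_false (not_lt.mpr hgt.le)
            have e2 : decide (j < i) = true := decide_eq_true hgt
            rw [e1, e2] at h1
            revert h1
            cases B j i <;> simp
        rw [hempty]
        simp
      · rw [inter_comm]
        apply inter_card_le j' j hjj
        · intro B hB
          exact G_subset n _ (mem_inter.mp hB).1
        · intro B hB B' hB' hout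
          rw [mem_inter] at hB hB'
          simp only [G, mem_ev] at hB hB'
          exact recA hB.1.1 hB'.1.1 hB.1.2 hB'.1.2 hB.2.2 hB'.2.2 hp' hi'j hp hout
    · apply inter_card_le j j' (fun h => hjj h.symm)
      · intro B hB
        exact G_subset n _ (mem_inter.mp hB).1
      · intro B hB B' hB' hout
        rw [mem_inter] at hB hB'
        simp only [G, mem_ev] at hB hB'
        exact recA hB.1.1 hB'.1.1 hB.1.2 hB'.1.2 hB.2.2 hB'.2.2 hp hij' hp' hout

/-- The second Bonferroni inequality with uniform bounds. -/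
theorem bonf {ι α : Type*} [DecidableEq ι] [DecidableEq α] (E : ι → Finset α) (m c : ℚ)
    (T : Finset ι) (hm : ∀ k ∈ T, m ≤ ((E k).card : ℚ))
    (hc : ∀ k ∈ T, ∀ l ∈ T, k ≠ l → (((E k) ∩ (E l)).card : ℚ) ≤ c) :
    (T.card : ℚ) * m - (T.card : ℚ) * ((T.card : ℚ) - 1) / 2 * c
      ≤ ((T.biUnion E).card : ℚ) := by
  induction T using Finset.induction_on with
  | empty => simp
  | insert a T ha ih =>
    have ih' := ih (fun k hk => hm k (mem_insert_of_mem hk))
      (fun k hk l hl hkl => hc k (mem_insert_of_mem hk) l (mem_insert_of_mem hl) hkl)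
    rw [biUnion_insert, card_insert_of_notMem ha]
    have h1 : ((E a ∪ T.biUnion E).card : ℚ) + ((E a ∩ T.biUnion E).card : ℚ)
        = ((E a).card : ℚ) + ((T.biUnion E).card : ℚ) := by
      exact_mod_cast card_union_add_card_inter (E a) (T.biUnion E)
    have h2 : ((E a ∩ T.biUnion E).card : ℚ) ≤ (T.card : ℚ) * c := by
      rw [inter_biUnion]
      have h21 : ((T.biUnion fun x => E a ∩ E x).card : ℚ)
          ≤ ∑ x ∈ T, ((E a ∩ E x).card : ℚ) := by
        exact_mod_cast card_biUnion_le (s := T) (t := fun x => E a ∩ E x)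
      have h22 : ∑ x ∈ T, ((E a ∩ E x).card : ℚ) ≤ ∑ _x ∈ T, c := by
        apply sum_le_sum
        intro x hx
        exact hc a (mem_insert_self a T) x (mem_insert_of_mem hx)
          (by rintro rfl; exact ha hx)
      rw [sum_const, nsmul_eq_mul] at h22
      exact le_trans h21 h22
    have h3 := hm a (mem_insert_self a T)
    have h4 : (((T.card + 1 : ℕ) : ℚ)) * m
        - ((T.card + 1 : ℕ) : ℚ) * (((T.card + 1 : ℕ) : ℚ) - 1) / 2 * c
        = m + ((T.card : ℚ) * m - (T.card : ℚ) * ((T.card : ℚ) - 1) / 2 * c)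
          - (T.card : ℚ) * c := by
      push_cast
      ring
    rw [h4]
    linarith

theorem symSign_pos (n : ℕ) : 0 < (symSign n).card := by
  apply card_pos.mpr
  refine ⟨Matrix.of (fun _ _ => true), ?_⟩
  rw [mem_symSign]
  intro i j
  rfl

theorem main (n : ℕ) :
    ((n : ℚ) * ((n : ℚ) - 1)) / 2 ^ n
      - ((n : ℚ) * ((n : ℚ) - 1)) * ((n : ℚ) * ((n : ℚ) - 1) - 1) / 4 ^ n ≤ q n := by
  have hSpos : (0 : ℚ) < ((symSign n).card : ℚ) := by exact_mod_cast symSign_pos n
  have hTcard : (((univ : Finset (Fin n)).offDiag.card : ℕ) : ℚ) = (n : ℚ) * ((n : ℚ) - 1) := by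
    rw [offDiag_card, card_univ, Fintype.card_fin, Nat.cast_sub (Nat.le_mul_self n)]
    push_cast
    ring
  have hm : ∀ p ∈ (univ : Finset (Fin n)).offDiag,
      ((symSign n).card : ℚ) / 2 ^ n ≤ ((G n p).card : ℚ) := by
    intro p hp
    rw [mem_offDiag] at hp
    have h := card_symSign_le (n := n) (i := p.1) (j := p.2) (decide (p.1 < p.2)) hp.2.2
    rw [div_le_iff₀ (by positivity)]
    exact_mod_cast h
  have hc : ∀ p ∈ (univ : Finset (Fin n)).offDiag, ∀ p' ∈ (univ : Finset (Fin n)).offDiag,
      p ≠ p' → (((G n p) ∩ (G n p')).card : ℚ) ≤ 2 * ((symSign n).card : ℚ) / 4 ^ n := by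
    intro p hp p' hp' hne
    rw [mem_offDiag] at hp hp'
    have h := pair_inter hp.2.2 hp'.2.2 hne
    rw [le_div_iff₀ (by positivity)]
    exact_mod_cast h
  have hb := bonf (G n) (((symSign n).card : ℚ) / 2 ^ n) (2 * ((symSign n).card : ℚ) / 4 ^ n)
    ((univ : Finset (Fin n)).offDiag) hm hc
  have hsub : ((univ : Finset (Fin n)).offDiag).biUnion (G n) ⊆ singSym n := by
    intro B hB
    rw [mem_biUnion] at hB
    obtain ⟨p, hp, hBp⟩ := hB
    rw [mem_offDiag] at hp
    exact ev_subset_sing _ hp.2.2 hBp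
  have hle : ((((univ : Finset (Fin n)).offDiag).biUnion (G n)).card : ℚ)
      ≤ ((singSym n).card : ℚ) := by
    exact_mod_cast card_le_card hsub
  rw [hTcard] at hb
  unfold q
  rw [le_div_iff₀ hSpos]
  have e : (((n : ℚ) * ((n : ℚ) - 1)) / 2 ^ n
      - ((n : ℚ) * ((n : ℚ) - 1)) * ((n : ℚ) * ((n : ℚ) - 1) - 1) / 4 ^ n)
        * ((symSign n).card : ℚ)
      = (n : ℚ) * ((n : ℚ) - 1) * (((symSign n).card : ℚ) / 2 ^ n)
        - (n : ℚ) * ((n : ℚ) - 1) * ((n : ℚ) * ((n : ℚ) - 1) - 1) / 2
          * (2 * ((symSign n).card : ℚ) / 4 ^ n) := by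
    ring
  rw [e]
  exact le_trans hb hle

end Vale.Agent.Lib.P160
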