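import Mathlib

namespace Vale.Agent.Lib.P160

/-- The sign coded by a Boolean: `true` is `+1`, `false` is `-1`. -/
def sgn (b : Bool) : ℤ := if b then 1 else -1

/-- The integer matrix with entries `+1`, `-1` coded by a Boolean matrix. -/
def signMatrix {n : ℕ} (B : Matrix (Fin n) (Fin n) Bool) : Matrix (Fin n) (Fin n) ℤ :=
  fun i j => sgn (B i j)

/-- All symmetric `n x n` sign matrices, in Boolean coding. -/
def symSign (n : ℕ) : Finset (Matrix (Fin n) (Fin n) Bool) :=
  Finset.univ.filter (fun B => B.transpose = B)

/-- The symmetric `n x n` sign matrices whose determinant is zero. -/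
def singSym (n : ℕ) : Finset (Matrix (Fin n) (Fin n) Bool) :=
  (symSign n).filter (fun B => (signMatrix B).det = 0)

/-- The singularity probability `q_n` of a uniformly random symmetric `n x n` sign matrix. -/
def q (n : ℕ) : ℚ := ((singSym n).card : ℚ) / ((symSign n).card : ℚ)

end Vale.Agent.Lib.P160
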