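import Vale.Agent.Lib.P160.Defs

namespace Vale.Agent.Lib.P160

open Finset

/-- The symmetric sign matrices in which row `j` is row `i` (if `s`) or minus row `i`. -/
def ev (n : ℕ) (i j : Fin n) (s : Bool) : Finset (Matrix (Fin n) (Fin n) Bool) :=
  (symSign n).filter (fun B => ∀ y, B j y = (B i y == s))

theorem mem_symSign {n : ℕ} {B : Matrix (Fin n) (Fin n) Bool} :
    B ∈ symSign n ↔ ∀ i j, B i j = B j i := by
  simp only [symSign, mem_filter, mem_univ, true_and]
  constructor
  · intro h i j
    have := congrFun (congrFun h j) i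
    simpa [Matrix.transpose] using this
  · intro h
    funext i j
    simp only [Matrix.transpose, Matrix.of_apply]
    exact h j i

theorem mem_ev {n : ℕ} {i j : Fin n} {s : Bool} {B : Matrix (Fin n) (Fin n) Bool} :
    B ∈ ev n i j s ↔ (∀ x y, B x y = B y x) ∧ ∀ y, B j y = (B i y == s) := by
  simp [ev, mem_symSign]

theorem sgn_beq (b s : Bool) : sgn (b == s) = sgn s * sgn b := by
  cases b <;> cases s <;> rfl

theorem sgn_ne_zero (s : Bool) : sgn s ≠ 0 := by
  cases s <;> simp [sgn]

theorem ev_det {n : ℕ} {i j : Fin n} {s : Bool} (hij : i ≠ j)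
    {B : Matrix (Fin n) (Fin n) Bool} (hB : B ∈ ev n i j s) : (signMatrix B).det = 0 := by
  rw [mem_ev] at hB
  set M := signMatrix B with hM
  have hrow : M j = sgn s • M i := by
    funext y
    simp only [hM, signMatrix, Pi.smul_apply, smul_eq_mul]
    rw [hB.2 y, sgn_beq]
  have h1 : M = Matrix.updateRow M j (sgn s • M i) := by
    rw [← hrow, Matrix.updateRow_eq_self]
  have h2 : (Matrix.updateRow M j (M i)).det = 0 := by
    apply Matrix.det_zero_of_row_eq hij
    rw [Matrix.updateRow_ne hij, Matrix.updateRow_self]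
  have h3 : M.det = sgn s * (Matrix.updateRow M j (M i)).det := by
    conv_lhs => rw [h1]
    rw [Matrix.det_updateRow_smul]
  rw [h3, h2, mul_zero]

theorem ev_subset_sing {n : ℕ} {i j : Fin n} (s : Bool) (hij : i ≠ j) :
    ev n i j s ⊆ singSym n := by
  intro B hB
  have h := ev_det hij hB
  rw [mem_ev] at hB
  simp only [singSym, mem_filter, mem_symSign]
  exact ⟨hB.1, h⟩

/-- Replace row and column `j` by the copy (or the negative) of row and column `i`. -/
def rep {n : ℕ} (i j : Fin n) (s : Bool) (B : Matrix (Fin n) (Fin n) Bool) :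
    Matrix (Fin n) (Fin n) Bool :=
  fun x y => if x = j then (if y = j then B i i else (B i y == s))
    else (if y = j then (B i x == s) else B x y)

theorem beq_beq (b s : Bool) : ((b == s) == s) = b := by
  cases b <;> cases s <;> rfl

theorem beq_inj {b c s : Bool} (h : (b == s) = (c == s)) : b = c := by
  cases b <;> cases c <;> cases s <;> simp_all

theorem rep_mem {n : ℕ} {i j : Fin n} (s : Bool) (hij : i ≠ j)
    {B : Matrix (Fin n) (Fin n) Bool} (hB : B ∈ symSign n) : rep i j s B ∈ ev n i j s := by
  rw [mem_symSign] at hB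
  rw [mem_ev]
  constructor
  · intro x y
    unfold rep
    by_cases hx : x = j <;> by_cases hy : y = j <;> simp [hx, hy, hB x y]
  · intro y
    unfold rep
    by_cases hy : y = j
    · simp [hy, hij]
    · simp [hy, hij]

theorem card_symSign_le {n : ℕ} {i j : Fin n} (s : Bool) (hij : i ≠ j) :
    (symSign n).card ≤ (ev n i j s).card * 2 ^ n := by
  have hcard : ((ev n i j s) ×ˢ (univ : Finset (Fin n → Bool))).card
      = (ev n i j s).card * 2 ^ n := by
    rw [card_product, card_univ, Fintype.card_fun, Fintype.card_bool, Fintype.card_fin]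
  rw [← hcard]
  apply card_le_card_of_injOn (fun B => (rep i j s B, fun y => B j y))
  · intro B hB
    simp only [coe_product, Set.mem_prod, mem_coe, mem_univ, and_true]
    exact rep_mem s hij hB
  · intro B hB B' hB' h
    simp only [mem_coe, mem_symSign] at hB hB'
    simp only [Prod.mk.injEq] at h
    obtain ⟨h1, h2⟩ := h
    funext x y
    by_cases hx : x = j
    · rw [hx]; exact congrFun h2 y
    · by_cases hy : y = j
      · rw [hy, hB x j, hB' x j]; exact congrFun h2 x
      · have := congrFun (congrFun h1 x) y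
        simpa [rep, hx, hy] using this

/-- Overwrite rows and columns `a` and `b` by the vectors `u` and `v`. -/
def ovw {n : ℕ} (a b : Fin n) (B : Matrix (Fin n) (Fin n) Bool) (u v : Fin n → Bool) :
    Matrix (Fin n) (Fin n) Bool :=
  fun x y => if x = a then u y else if y = a then u x else if x = b then v y
    else if y = b then v x else B x y

theorem ovw_mem {n : ℕ} (a b : Fin n) {B : Matrix (Fin n) (Fin n) Bool} (hB : B ∈ symSign n)
    (u v : Fin n → Bool) : ovw a b B u v ∈ symSign n := by
  rw [mem_symSign] at hB ⊢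
  intro x y
  unfold ovw
  by_cases hx : x = a <;> by_cases hy : y = a <;> by_cases hx' : x = b <;> by_cases hy' : y = b <;>
    simp_all

theorem inter_card_le {n : ℕ} (a b : Fin n) (hab : b ≠ a) (S : Finset (Matrix (Fin n) (Fin n) Bool))
    (hS : S ⊆ symSign n)
    (hrec : ∀ B ∈ S, ∀ B' ∈ S,
      (∀ x y, x ≠ a → x ≠ b → y ≠ a → y ≠ b → B x y = B' x y) → B = B') :
    S.card * 4 ^ n ≤ 2 * (symSign n).card := by
  have hc1 : (S ×ˢ ((univ : Finset (Fin n → Bool)) ×ˢ (univ : Finset (Fin n → Bool)))).card
      = S.card * 4 ^ n := by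
    rw [card_product, card_product, card_univ, Fintype.card_fun, Fintype.card_bool,
      Fintype.card_fin, ← mul_pow]
    norm_num
  have hc2 : ((symSign n) ×ˢ (univ : Finset Bool)).card = 2 * (symSign n).card := by
    rw [card_product, card_univ, Fintype.card_bool, mul_comm]
  rw [← hc1, ← hc2]
  apply card_le_card_of_injOn
    (fun t : Matrix (Fin n) (Fin n) Bool × ((Fin n → Bool) × (Fin n → Bool)) =>
      (ovw a b t.1 t.2.1 t.2.2, t.2.2 a))
  · intro t ht
    simp only [coe_product, Set.mem_prod, mem_coe, mem_univ, and_true] at ht ⊢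
    exact ovw_mem a b (hS ht) _ _
  · rintro ⟨B, u, v⟩ ht ⟨B', u', v'⟩ ht' h
    simp only [coe_product, Set.mem_prod, mem_coe, mem_univ, and_true] at ht ht'
    simp only [Prod.mk.injEq] at h
    obtain ⟨h1, h2⟩ := h
    have hu : u = u' := by
      funext y
      have := congrFun (congrFun h1 a) y
      simpa [ovw] using this
    have hv : v = v' := by
      funext y
      by_cases hy : y = a
      · rw [hy]; exact h2
      · have := congrFun (congrFun h1 b) y
        simpa [ovw, hab, hy] using this
    have hBB : B = B' := by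
      apply hrec B ht B' ht'
      intro x y hxa hxb hya hyb
      have := congrFun (congrFun h1 x) y
      simpa [ovw, hxa, hxb, hya, hyb] using this
    rw [hu, hv, hBB]

theorem recA {n : ℕ} {B B' : Matrix (Fin n) (Fin n) Bool} {i j i' j' : Fin n} {s s' : Bool}
    (hB : ∀ x y, B x y = B y x) (hB' : ∀ x y, B' x y = B' y x)
    (h1 : ∀ y, B j y = (B i y == s)) (h1' : ∀ y, B' j y = (B' i y == s))
    (h2 : ∀ y, B j' y = (B i' y == s')) (h2' : ∀ y, B' j' y = (B' i' y == s'))
    (hij : i ≠ j) (hij' : i ≠ j') (hi'j' : i' ≠ j')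
    (hout : ∀ x y, x ≠ j → x ≠ j' → y ≠ j → y ≠ j' → B x y = B' x y) : B = B' := by
  have f1 : ∀ y, B i y = B' i y → B j y = B' j y := by
    intro y h; rw [h1, h1', h]
  have f2 : ∀ y, B i' y = B' i' y → B j' y = B' j' y := by
    intro y h; rw [h2, h2', h]
  have hji : B j i = B' j i := f1 i (hout i i hij hij' hij hij')
  have hi : ∀ y, B i y = B' i y := by
    intro y
    by_cases hy : y = j
    · rw [hy, hB i j, hB' i j]; exact hji
    · by_cases hy' : y = j'
      · rw [hy', hB i j', hB' i j']
        apply f2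
        by_cases hi' : i' = j
        · rw [hi']; exact hji
        · exact hout i' i hi' hi'j' hij hij'
      · exact hout i y hij hij' hy hy'
  have hj : ∀ y, B j y = B' j y := fun y => f1 y (hi y)
  have hi' : ∀ y, B i' y = B' i' y := by
    intro y
    by_cases hi'j : i' = j
    · rw [hi'j]; exact hj y
    · by_cases hy : y = j
      · rw [hy, hB i' j, hB' i' j]; exact hj i'
      · by_cases hy' : y = j'
        · rw [hy', hB i' j', hB' i' j']
          exact f2 i' (hout i' i' hi'j hi'j' hi'j hi'j')
        · exact hout i' y hi'j hi'j' hy hy'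
  have hj' : ∀ y, B j' y = B' j' y := fun y => f2 y (hi' y)
  funext x y
  by_cases hx : x = j
  · rw [hx]; exact hj y
  · by_cases hx' : x = j'
    · rw [hx']; exact hj' y
    · by_cases hy : y = j
      · rw [hy, hB x j, hB' x j]; exact hj x
      · by_cases hy' : y = j'
        · rw [hy', hB x j', hB' x j']; exact hj' x
        · exact hout x y hx hx' hy hy'

theorem recB {n : ℕ} {B B' : Matrix (Fin n) (Fin n) Bool} {i j i' : Fin n} {s s' : Bool}
    (hB : ∀ x y, B x y = B y x) (hB' : ∀ x y, B' x y = B' y x)
    (h1 : ∀ y, B j y = (B i y == s)) (h1' : ∀ y, B' j y = (B' i y == s))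
    (h2 : ∀ y, B j y = (B i' y == s')) (h2' : ∀ y, B' j y = (B' i' y == s'))
    (hij : i ≠ j) (hii' : i ≠ i')
    (hout : ∀ x y, x ≠ j → x ≠ i' → y ≠ j → y ≠ i' → B x y = B' x y) : B = B' := by
  have f1 : ∀ y, B i y = B' i y → B j y = B' j y := by
    intro y h; rw [h1, h1', h]
  have g2 : ∀ y, B j y = B' j y → B i' y = B' i' y := by
    intro y h
    rw [h2, h2'] at h
    exact beq_inj h
  have hji : B j i = B' j i := f1 i (hout i i hij hii' hij hii')
  have hi : ∀ y, B i y = B' i y := by
    intro y
    by_cases hy : y = j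
    · rw [hy, hB i j, hB' i j]; exact hji
    · by_cases hy' : y = i'
      · rw [hy', hB i i', hB' i i']
        exact g2 i hji
      · exact hout i y hij hii' hy hy'
  have hj : ∀ y, B j y = B' j y := fun y => f1 y (hi y)
  have hi' : ∀ y, B i' y = B' i' y := fun y => g2 y (hj y)
  funext x y
  by_cases hx : x = j
  · rw [hx]; exact hj y
  · by_cases hx' : x = i'
    · rw [hx']; exact hi' y
    · by_cases hy : y = j
      · rw [hy, hB x j, hB' x j]; exact hj x
      · by_cases hy' : y = i'
        · rw [hy', hB x i', hB' x i']; exact hi' x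
        · exact hout x y hx hx' hy hy'

end Vale.Agent.Lib.P160
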